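import Vale.Agent.P313.AC.FDef

/-!
The numeric functions of the specification are computed in logarithmic space.
-/

namespace Vale.Agent.P313.AC

open Finset

/-! ### Functions of numbers -/

section lf

variable {k : ℕ}

theorem lf_t0 {b l : Fn k} (hb : LF b) (hl : LF l) : LF (fun x a => t0 (b x a) (l x a)) :=
  (((LF.const 2).mul hl).div hb).add (LF.const 1)

theorem lf_prc {b l t i j : Fn k} (hb : LF b) (hl : LF l) (ht : LF t) (hi : LF i) (hj : LF j) :
    LF (fun x a => prc (b x a) (l x a) (t x a) (i x a) (j x a)) :=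
  ((ht.add (lf_t0 hb hl)).add (LF.const 3)).sub (hi.add hj)

theorem lfp_okp {b l t i j : Fn k} (hb : LF b) (hl : LF l) (ht : LF t) (hi : LF i) (hj : LF j) :
    LFP (fun x a => okp (b x a) (l x a) (t x a) (i x a) (j x a)) :=
  (LFP.le (lf_t0 hb hl) hi).and ((LFP.le hi ht).and ((LFP.le (lf_t0 hb hl) hj).and
    ((LFP.le hj ht).and (LFP.le (hi.add hj) ((ht.add (lf_t0 hb hl)).add (LF.const 2))))))

theorem lfp_sam {P w g u : Fn k} (hP : LF P) (hw : LF w) (hg : LF g) (hu : LF u) :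
    LFP (fun x a => sam (P x a) (w x a) (g x a) (u x a)) :=
  LFP.lt ((((hg.mod hP).mul hu).add (hg.div hP)).mod hP) hw

theorem lf_buc {P W h u : Fn k} (hP : LF P) (hW : LF W) (hh : LF h) (hu : LF u) :
    LF (fun x a => buc (P x a) (W x a) (h x a) (u x a)) :=
  ((((hh.mod hP).mul hu).add (hh.div hP)).mod hP).div hW

theorem lf_mst {P v s : Fn k} (hP : LF P) (hv : LF v) (hs : LF s) :
    LF (fun x a => mst (P x a) (v x a) (s x a)) := by
  unfold mst
  have hm := hv.mod hP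
  have hd := hv.div hP
  have h1 := hP.sub (LF.const 1)
  exact LF.ite (LFP.eq hs (LF.const 0))
      (((hm.add ((LF.const 2).mul hd)).mod hP).add (hP.mul hd))
    (LF.ite (LFP.eq hs (LF.const 1))
      ((((hm.add ((LF.const 2).mul hd)).add (LF.const 1)).mod hP).add (hP.mul hd))
    (LF.ite (LFP.eq hs (LF.const 2))
      (hm.add (hP.mul ((hd.add ((LF.const 2).mul hm)).mod hP)))
    (LF.ite (LFP.eq hs (LF.const 3))
      (hm.add (hP.mul (((hd.add ((LF.const 2).mul hm)).add (LF.const 1)).mod hP)))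
    (LF.ite (LFP.eq hs (LF.const 4))
      (((hm.add ((LF.const 2).mul (hP.sub hd))).mod hP).add (hP.mul hd))
    (LF.ite (LFP.eq hs (LF.const 5))
      ((((hm.add h1).add ((LF.const 2).mul (hP.sub hd))).mod hP).add (hP.mul hd))
    (LF.ite (LFP.eq hs (LF.const 6))
      (hm.add (hP.mul ((hd.add ((LF.const 2).mul (hP.sub hm))).mod hP)))
      (hm.add (hP.mul (((hd.add h1).add ((LF.const 2).mul (hP.sub hm))).mod hP)))))))))

theorem mst_lt {P v s : ℕ} (hP : 0 < P) (hv : v < P ^ 2) : mst P v s < P ^ 2 := by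
  have hd : v / P < P := by
    rw [Nat.div_lt_iff_lt_mul hP]
    rwa [pow_two] at hv
  have key : ∀ a b : ℕ, a < P → b < P → a + P * b < P ^ 2 := by
    intro a b ha hb
    calc a + P * b < P + P * b := by omega
      _ = P * (b + 1) := by ring
      _ ≤ P * P := Nat.mul_le_mul_left _ hb
      _ = P ^ 2 := by ring
  unfold mst
  split_ifs
  all_goals
    apply key
    · first
        | exact Nat.mod_lt _ hP
        | exact hd
    · first
        | exact hd
        | exact Nat.mod_lt _ hP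

theorem mst_zero_le (v s : ℕ) : mst 0 v s ≤ v + 1 := by
  unfold mst
  split_ifs <;> simp

theorem mwk_lt {P : ℕ} (hP : 0 < P) (z j : ℕ) : mwk P z j < P ^ 2 := by
  induction j with
  | zero => exact Nat.mod_lt _ (by positivity)
  | succ j ih => exact mst_lt hP ih

theorem mwk_le (P z j : ℕ) : mwk P z j ≤ P ^ 2 + z + j := by
  rcases Nat.eq_zero_or_pos P with h | h
  · subst h
    induction j with
    | zero =>
      show z % 0 ^ 2 ≤ _
      simp
    | succ j ih =>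
      have := mst_zero_le (mwk 0 z j) (z / 0 ^ 2 / 8 ^ j % 8)
      change mst 0 (mwk 0 z j) (z / 0 ^ 2 / 8 ^ j % 8) ≤ _
      omega
  · have := mwk_lt h z j
    omega

theorem lf_mwk {P z j : Fn k} (hP : LF P) (hz : LF z) (hj : LF j) :
    LF (fun x a => mwk (P x a) (z x a) (j x a)) := by
  have hstep : LF (fun x b => mst (P x (Fin.tail (Fin.tail b))) (b 1)
      (z x (Fin.tail (Fin.tail b)) / P x (Fin.tail (Fin.tail b)) ^ 2 / 8 ^ b 0 % 8) :
      Fn (k + 2)) :=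
    lf_mst hP.weak.weak (LF.proj 1) ((Q.lf_divPow (LF.const 8)
      (hz.weak.weak.div (hP.weak.weak.powConst 2)) (LF.proj 0)).mod (LF.const 8))
  have e : ∀ x a (i : ℕ), (Nat.rec (z x a % P x a ^ 2) (fun i r =>
      (fun x b => mst (P x (Fin.tail (Fin.tail b))) (b 1)
      (z x (Fin.tail (Fin.tail b)) / P x (Fin.tail (Fin.tail b)) ^ 2 / 8 ^ b 0 % 8) :
      Fn (k + 2)) x (Fin.cons i (Fin.cons r a))) i : ℕ) = mwk (P x a) (z x a) i := by
    intro x a i
    induction i with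
    | zero => rfl
    | succ i ih =>
      change mst (P x a) _ _ = mst (P x a) (mwk (P x a) (z x a) i) _
      rw [ih]
      rfl
  have h1 := LF.natRec' hj (hz.mod (hP.powConst 2)) hstep
    (fun x a => P x a ^ 2 + z x a + j x a) (((hP.powConst 2).add hz).add hj).pb
    (fun x a i hi => by
      rw [e]
      have := mwk_le (P x a) (z x a) i
      omega)
  refine h1.congr fun x a => ?_
  exact e x a _

theorem lf_wK {P K0 K : Fn k} (hP : LF P) (h0 : LF K0) (hK : LF K) :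
    LF (fun x a => wK (P x a) (K0 x a) (K x a)) := by
  unfold wK
  exact LF.ite (LFP.le hK h0) hP (((h0.mul hP).div hK).add (LF.const 1))

theorem lf_tK {P K0 Bm K : Fn k} (hP : LF P) (h0 : LF K0) (hB : LF Bm) (hK : LF K) :
    LF (fun x a => tK (P x a) (K0 x a) (Bm x a) (K x a)) := by
  unfold tK
  exact LF.ite (LFP.le hK h0) hK
    (((((((LF.const 2).mul hB).add (LF.const 1)).mul hK).mul (lf_wK hP h0 hK)).div
      (((LF.const 2).mul hB).mul hP)).add (LF.const 1))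

end lf

/-! ### Terms -/

section terms

variable {k : ℕ}

/-- Lifting functions of one number. -/
theorem TF.ap1 {g : ℕ → ℕ} (hg : NF (fun a : Fin 1 → ℕ => g (a 0)))
    {σ : List Bool → (Fin k → ℕ) → ℕ} (h : TF σ) : TF (fun x a => g (σ x a)) :=
  TF.comp (τ := fun _ => σ) hg fun _ => h

/-- Parameters. -/
theorem TF.par {g : ℕ → ℕ} (hg : NF (fun a : Fin 1 → ℕ => g (a 0))) :
    TF (fun (x : List Bool) (_ : Fin k → ℕ) => g x.length) := TF.ap1 hg TF.len

theorem TF.ap2 {g : ℕ → ℕ → ℕ} (hg : NF (fun a : Fin 2 → ℕ => g (a 0) (a 1)))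
    {σ τ : List Bool → (Fin k → ℕ) → ℕ} (h1 : TF σ) (h2 : TF τ) :
    TF (fun x a => g (σ x a) (τ x a)) :=
  TF.comp (τ := ![σ, τ]) hg fun i => by
    match i with
    | 0 => exact h1
    | 1 => exact h2

theorem TF.ap3 {g : ℕ → ℕ → ℕ → ℕ} (hg : NF (fun a : Fin 3 → ℕ => g (a 0) (a 1) (a 2)))
    {σ τ ρ : List Bool → (Fin k → ℕ) → ℕ} (h1 : TF σ) (h2 : TF τ) (h3 : TF ρ) :
    TF (fun x a => g (σ x a) (τ x a) (ρ x a)) :=
  TF.comp (τ := ![σ, τ, ρ]) hg fun i => by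
    match i with
    | 0 => exact h1
    | 1 => exact h2
    | 2 => exact h3

theorem TF.ap4 {g : ℕ → ℕ → ℕ → ℕ → ℕ}
    (hg : NF (fun a : Fin 4 → ℕ => g (a 0) (a 1) (a 2) (a 3)))
    {σ τ ρ υ : List Bool → (Fin k → ℕ) → ℕ} (h1 : TF σ) (h2 : TF τ) (h3 : TF ρ) (h4 : TF υ) :
    TF (fun x a => g (σ x a) (τ x a) (ρ x a) (υ x a)) :=
  TF.comp (τ := ![σ, τ, ρ, υ]) hg fun i => by
    match i with
    | 0 => exact h1
    | 1 => exact h2
    | 2 => exact h3
    | 3 => exact h4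

theorem TF.ap5 {g : ℕ → ℕ → ℕ → ℕ → ℕ → ℕ}
    (hg : NF (fun a : Fin 5 → ℕ => g (a 0) (a 1) (a 2) (a 3) (a 4)))
    {σ τ ρ υ ω : List Bool → (Fin k → ℕ) → ℕ} (h1 : TF σ) (h2 : TF τ) (h3 : TF ρ) (h4 : TF υ)
    (h5 : TF ω) : TF (fun x a => g (σ x a) (τ x a) (ρ x a) (υ x a) (ω x a)) :=
  TF.comp (τ := ![σ, τ, ρ, υ, ω]) hg fun i => by
    match i with
    | 0 => exact h1
    | 1 => exact h2
    | 2 => exact h3
    | 3 => exact h4
    | 4 => exact h5

theorem TP.ap4 {g : ℕ → ℕ → ℕ → ℕ → Prop}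
    (hg : NP (fun a : Fin 4 → ℕ => g (a 0) (a 1) (a 2) (a 3)))
    {σ τ ρ υ : List Bool → (Fin k → ℕ) → ℕ} (h1 : TF σ) (h2 : TF τ) (h3 : TF ρ) (h4 : TF υ) :
    TP (fun x a => g (σ x a) (τ x a) (ρ x a) (υ x a)) :=
  TP.comp (τ := ![σ, τ, ρ, υ]) hg fun i => by
    match i with
    | 0 => exact h1
    | 1 => exact h2
    | 2 => exact h3
    | 3 => exact h4

theorem TP.ap5 {g : ℕ → ℕ → ℕ → ℕ → ℕ → Prop}
    (hg : NP (fun a : Fin 5 → ℕ => g (a 0) (a 1) (a 2) (a 3) (a 4)))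
    {σ τ ρ υ ω : List Bool → (Fin k → ℕ) → ℕ} (h1 : TF σ) (h2 : TF τ) (h3 : TF ρ) (h4 : TF υ)
    (h5 : TF ω) : TP (fun x a => g (σ x a) (τ x a) (ρ x a) (υ x a) (ω x a)) :=
  TP.comp (τ := ![σ, τ, ρ, υ, ω]) hg fun i => by
    match i with
    | 0 => exact h1
    | 1 => exact h2
    | 2 => exact h3
    | 3 => exact h4
    | 4 => exact h5

variable {σ τ ρ υ ω : List Bool → (Fin k → ℕ) → ℕ}

theorem TF.min (hσ : TF σ) (hτ : TF τ) : TF (fun x a => Min.min (σ x a) (τ x a)) :=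
  TF.bin (g := fun a b => Min.min a b) (fun h h' => h.min h') hσ hτ

theorem TF.log2 (hσ : TF σ) : TF (fun x a => Nat.log 2 (σ x a)) :=
  TF.ap1 (g := fun n => Nat.log 2 n) (LF.log2 (LF.proj 0)) hσ

/-- Division by a power which may be large. -/
theorem TF.divPow (hσ : TF σ) (hτ : TF τ) (hρ : TF ρ) :
    TF (fun x a => σ x a / τ x a ^ ρ x a) :=
  TF.ap3 (g := fun s t r => s / t ^ r) (Q.lf_divPow (LF.proj 1) (LF.proj 0) (LF.proj 2)) hσ hτ hρ

/-- The digit `i` of `r` in base `q`. -/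
theorem TF.digit (hσ : TF σ) (hτ : TF τ) (hρ : TF ρ) :
    TF (fun x a => σ x a / τ x a ^ ρ x a % τ x a) := (TF.divPow hσ hτ hρ).mod hτ

/-- A power, cut off. -/
theorem TF.powMin (hσ : TF σ) (hτ : TF τ) (hρ : TF ρ) :
    TF (fun x a => Min.min (σ x a ^ τ x a) (ρ x a + 1)) :=
  TF.ap3 (g := fun s t r => Min.min (s ^ t) (r + 1))
    (Q.lf_powMin (LF.proj 0) (LF.proj 1) (LF.proj 2)) hσ hτ hρ

theorem TF.t0 (hσ : TF σ) (hτ : TF τ) : TF (fun x a => AC.t0 (σ x a) (τ x a)) :=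
  TF.ap2 (g := AC.t0) (lf_t0 (LF.proj 0) (LF.proj 1)) hσ hτ

theorem TF.prc (hσ : TF σ) (hτ : TF τ) (hρ : TF ρ) (hυ : TF υ) (hω : TF ω) :
    TF (fun x a => AC.prc (σ x a) (τ x a) (ρ x a) (υ x a) (ω x a)) :=
  TF.ap5 (g := AC.prc) (lf_prc (LF.proj 0) (LF.proj 1) (LF.proj 2) (LF.proj 3) (LF.proj 4))
    hσ hτ hρ hυ hω

theorem TP.okp (hσ : TF σ) (hτ : TF τ) (hρ : TF ρ) (hυ : TF υ) (hω : TF ω) :
    TP (fun x a => AC.okp (σ x a) (τ x a) (ρ x a) (υ x a) (ω x a)) :=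
  TP.ap5 (g := AC.okp) (lfp_okp (LF.proj 0) (LF.proj 1) (LF.proj 2) (LF.proj 3) (LF.proj 4))
    hσ hτ hρ hυ hω

theorem TP.sam (hσ : TF σ) (hτ : TF τ) (hρ : TF ρ) (hυ : TF υ) :
    TP (fun x a => AC.sam (σ x a) (τ x a) (ρ x a) (υ x a)) :=
  TP.ap4 (g := AC.sam) (lfp_sam (LF.proj 0) (LF.proj 1) (LF.proj 2) (LF.proj 3)) hσ hτ hρ hυ

theorem TF.buc (hσ : TF σ) (hτ : TF τ) (hρ : TF ρ) (hυ : TF υ) :
    TF (fun x a => AC.buc (σ x a) (τ x a) (ρ x a) (υ x a)) :=
  TF.ap4 (g := AC.buc) (lf_buc (LF.proj 0) (LF.proj 1) (LF.proj 2) (LF.proj 3)) hσ hτ hρ hυ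

theorem TF.mwk (hσ : TF σ) (hτ : TF τ) (hρ : TF ρ) :
    TF (fun x a => AC.mwk (σ x a) (τ x a) (ρ x a)) :=
  TF.ap3 (g := AC.mwk) (lf_mwk (LF.proj 0) (LF.proj 1) (LF.proj 2)) hσ hτ hρ

theorem TF.wK (hσ : TF σ) (hτ : TF τ) (hρ : TF ρ) :
    TF (fun x a => AC.wK (σ x a) (τ x a) (ρ x a)) :=
  TF.ap3 (g := AC.wK) (lf_wK (LF.proj 0) (LF.proj 1) (LF.proj 2)) hσ hτ hρ

theorem TF.tK (hσ : TF σ) (hτ : TF τ) (hρ : TF ρ) (hυ : TF υ) :
    TF (fun x a => AC.tK (σ x a) (τ x a) (ρ x a) (υ x a)) :=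
  TF.ap4 (g := AC.tK) (lf_tK (LF.proj 0) (LF.proj 1) (LF.proj 2) (LF.proj 3)) hσ hτ hρ hυ

theorem TP.true : TP (fun (_ : List Bool) (_ : Fin k → ℕ) => True) :=
  (TP.eq (TF.const 0) (TF.const 0)).congr fun _ _ => by simp

theorem TP.ite {P Q R : List Bool → (Fin k → ℕ) → Prop} [∀ x a, Decidable (P x a)]
    (hP : TP P) (hQ : TP Q) (hR : TP R) : TP (fun x a => if P x a then Q x a else R x a) :=
  ((hP.imp hQ).and (hP.not.imp hR)).congr fun x a => by
    by_cases h : P x a <;> simp [h]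

end terms

/-- The digit sum. -/
theorem TF.digSum {k : ℕ} {φ r q : List Bool → (Fin k → ℕ) → ℕ} (hf : TF φ) (hr : TF r)
    (hq : TF q) : TF (fun x a => ∑ i ∈ range (φ x a), r x a / q x a ^ i % q x a) := by
  refine TF.ap3 (g := fun f r q => ∑ i ∈ range f, r / q ^ i % q) ?_ hf hr hq
  have h1 := LF.sum (k := 3) (n := fun _ a => a 0) (f := fun _ b => b 2 / b 3 ^ b 0 % b 3)
    ((Q.lf_divPow (LF.proj 3) (LF.proj 2) (LF.proj 0)).mod (LF.proj 3)) (LF.proj 0)
  exact h1.congr fun x a => rfl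

/-- Comparison with a power which may be large. -/
theorem TP.ltPow {k : ℕ} {r q φ : List Bool → (Fin k → ℕ) → ℕ} (hr : TF r) (hq : TF q)
    (hf : TF φ) : TP (fun x a => r x a < q x a ^ φ x a) := by
  have h1 : NP (fun a : Fin 3 → ℕ => a 0 < a 1 ^ a 2) :=
    (LFP.not (Q.lfp_powLe (LF.proj 1) (LF.proj 2) (LF.proj 0))).congr fun x a => by
      rw [not_le]
  exact TP.comp (g := fun a : Fin 3 → ℕ => a 0 < a 1 ^ a 2) (τ := ![r, q, φ]) h1 fun i => by
    match i with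
    | 0 => exact hr
    | 1 => exact hq
    | 2 => exact hf

theorem TF.gpd {k : ℕ} {sg c1 c2 d1 d2 : List Bool → (Fin k → ℕ) → ℕ} (h0 : TF sg) (h1 : TF c1)
    (h2 : TF c2) (h3 : TF d1) (h4 : TF d2) :
    TF (fun x a => AC.gpd (sg x a) (c1 x a) (c2 x a) (d1 x a) (d2 x a)) :=
  TF.ite (TP.eq h0 (TF.const 0))
    (((h1.sub h2).mul (h3.sub h4)).add ((h2.sub h1).mul (h4.sub h3)))
    (((h1.sub h2).mul (h4.sub h3)).add ((h2.sub h1).mul (h3.sub h4)))

/-- The symbol under the head. -/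
theorem FO.sympr {m k : ℕ} {q s : List Bool → (Fin k → ℕ) → ℕ} (hq : TF q) (hs : TF s) :
    FO (fun x (_ : (Fin m → ℕ) → Prop) a => AC.sympr x (q x a) (s x a)) := by
  have hin : FO (fun x (_ : (Fin m → ℕ) → Prop) a => x[q x a - 1]? = some true) :=
    FO.inpT (hq.sub (TF.const 1))
  refine FO.or ?_ (FO.or ?_ (FO.or ?_ ?_))
  · exact FO.tp ((TP.eq hq (TF.const 0)).and (TP.eq hs (TF.const 0)))
  · exact FO.tp ((TP.le (TF.const 1) hq).and ((TP.lt TF.len hq).and (TP.eq hs (TF.const 1))))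
  · exact FO.and (FO.tp (TP.le (TF.const 1) hq)) (FO.and (FO.tp (TP.le hq TF.len))
      (FO.and hin.not (FO.tp (TP.eq hs (TF.const 2)))))
  · exact FO.and (FO.tp (TP.le (TF.const 1) hq)) (FO.and (FO.tp (TP.le hq TF.len))
      (FO.and hin (FO.tp (TP.eq hs (TF.const 3)))))

/-! ### The parameters -/

namespace GoodF

variable {κ j0 e : ℕ} {p : ℕ → Pr} (h : GoodF κ j0 e p) {k : ℕ}

include h

theorem tf_f : TF (fun (x : List Bool) (_ : Fin k → ℕ) => (p x.length).f) :=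
  TF.par (g := fun n => (p n).f) h.nf
theorem tf_b : TF (fun (x : List Bool) (_ : Fin k → ℕ) => (p x.length).b) :=
  TF.par (g := fun n => (p n).b) h.nb
theorem tf_N : TF (fun (x : List Bool) (_ : Fin k → ℕ) => (p x.length).N) :=
  TF.par (g := fun n => (p n).N) h.nN
theorem tf_L : TF (fun (x : List Bool) (_ : Fin k → ℕ) => (p x.length).L) :=
  TF.par (g := fun n => (p n).L) h.nL
theorem tf_g0 : TF (fun (x : List Bool) (_ : Fin k → ℕ) => (p x.length).g0) :=
  TF.par (g := fun n => (p n).g0) h.ng0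
theorem tf_tm : TF (fun (x : List Bool) (_ : Fin k → ℕ) => (p x.length).tm) :=
  TF.par (g := fun n => (p n).tm) h.ntm
theorem tf_Q : TF (fun (x : List Bool) (_ : Fin k → ℕ) => (p x.length).Q) :=
  TF.par (g := fun n => (p n).Q) h.nQ
theorem tf_P : TF (fun (x : List Bool) (_ : Fin k → ℕ) => (p x.length).P) :=
  TF.par (g := fun n => (p n).P) h.nP
theorem tf_τ : TF (fun (x : List Bool) (_ : Fin k → ℕ) => (p x.length).τ) :=
  TF.par (g := fun n => (p n).τ) h.nτ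
theorem tf_V : TF (fun (x : List Bool) (_ : Fin k → ℕ) => (p x.length).V) :=
  TF.par (g := fun n => (p n).V) h.nV
theorem tf_Lq : TF (fun (x : List Bool) (_ : Fin k → ℕ) => (p x.length).Lq) :=
  TF.par (g := fun n => (p n).Lq) h.nLq
theorem tf_B : TF (fun (x : List Bool) (_ : Fin k → ℕ) => 2 ^ (p x.length).b) :=
  TF.par (g := fun n => 2 ^ (p n).b) h.nB

theorem tf_C : TF (fun (x : List Bool) (_ : Fin k → ℕ) => (p x.length).C) :=
  ((TF.const 4).mul (h.tf_Q.powConst 2)).add (TF.const 1)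

theorem tf_U : TF (fun (x : List Bool) (_ : Fin k → ℕ) => (p x.length).U) := h.tf_N.mul h.tf_C

/-- `2 ^ g0`. -/
theorem tf_G0 : TF (fun (x : List Bool) (_ : Fin k → ℕ) => 2 ^ (p x.length).g0) := by
  refine TF.par (g := fun n => 2 ^ (p n).g0) (LF.pow (LF.const 2) h.ng0 ⟨e, fun x a => ?_⟩)
  refine (h.hG (a 0)).trans (Nat.pow_le_pow_left ?_ e)
  have := arg_le_mu x a 0
  unfold mu
  simp only [univ_unique, Fin.default_eq_zero, Fin.isValue, sum_singleton]
  omega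

end GoodF

namespace Dat.Ok

variable {D : Dat} (h : D.Ok) {k : ℕ}

include h

theorem tf_gB : TF (fun (x : List Bool) (_ : Fin k → ℕ) => gB D x.length) := h.goodF.tf_B

theorem tf_gJ : TF (fun (x : List Bool) (_ : Fin k → ℕ) => gJ D x.length) :=
  h.goodF.tf_f.powConst D.j0

omit h in
theorem gm_le (n l t i j : ℕ) : gm D n l t i j ≤ (D.p n).tm + 3 := min_le_right _ _

theorem pow_le_P {n u : ℕ} (hu : u ≤ 4 * ((D.p n).tm + 3) + 3) : gB D n ^ u ≤ (D.p n).P :=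
  (Nat.pow_le_pow_right (Nat.two_pow_pos _) hu).trans (h.good n).hK

/-- Powers of the base. -/
theorem tf_powB {u : List Bool → (Fin k → ℕ) → ℕ} (hu : TF u)
    (hle : ∀ x a, u x a ≤ 4 * ((D.p x.length).tm + 3) + 3) :
    TF (fun x a => gB D x.length ^ u x a) :=
  (TF.powMin h.tf_gB hu h.goodF.tf_P).congr fun x a =>
    min_eq_left ((h.pow_le_P (hle x a)).trans (Nat.le_succ _))

theorem tf_gBm {m : List Bool → (Fin k → ℕ) → ℕ} (hm : TF m)
    (hle : ∀ x a, m x a ≤ (D.p x.length).tm + 3) : TF (fun x a => gBm D x.length (m x a)) :=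
  h.tf_powB hm fun x a => by
    have := hle x a
    omega

theorem tf_gK0 {m : List Bool → (Fin k → ℕ) → ℕ} (hm : TF m)
    (hle : ∀ x a, m x a ≤ (D.p x.length).tm + 3) : TF (fun x a => gK0 D x.length (m x a)) :=
  h.tf_powB (((TF.const 2).mul hm).add (TF.const 1)) fun x a => by
    have := hle x a
    omega

theorem tf_gKb {m : List Bool → (Fin k → ℕ) → ℕ} (hm : TF m)
    (hle : ∀ x a, m x a ≤ (D.p x.length).tm + 3) : TF (fun x a => gKb D x.length (m x a)) :=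
  h.tf_powB (((TF.const 4).mul hm).add (TF.const 3)) fun x a => by
    have := hle x a
    omega

omit h in
theorem tf_gr {m : List Bool → (Fin k → ℕ) → ℕ} (hm : TF m) : TF (fun x a => gr D (m x a)) :=
  (TF.const D.κ).mul (((TF.const 4).mul hm).add (TF.const 3))

section gm

variable {l t i j : List Bool → (Fin k → ℕ) → ℕ} (hl : TF l) (ht : TF t) (hi : TF i) (hj : TF j)

include hl ht hi hj

theorem tf_gm : TF (fun x a => gm D x.length (l x a) (t x a) (i x a) (j x a)) :=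
  (TF.prc h.goodF.tf_b hl ht hi hj).min (h.goodF.tf_tm.add (TF.const 3))

theorem tf_gBm' : TF (fun x a => gBm D x.length (gm D x.length (l x a) (t x a) (i x a) (j x a))) :=
  h.tf_gBm (h.tf_gm hl ht hi hj) fun _ _ => gm_le _ _ _ _ _

theorem tf_gK0' : TF (fun x a => gK0 D x.length (gm D x.length (l x a) (t x a) (i x a) (j x a))) :=
  h.tf_gK0 (h.tf_gm hl ht hi hj) fun _ _ => gm_le _ _ _ _ _

theorem tf_gKb' : TF (fun x a => gKb D x.length (gm D x.length (l x a) (t x a) (i x a) (j x a))) :=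
  h.tf_gKb (h.tf_gm hl ht hi hj) fun _ _ => gm_le _ _ _ _ _

theorem tf_gr' : TF (fun x a => gr D (gm D x.length (l x a) (t x a) (i x a) (j x a))) :=
  tf_gr (h.tf_gm hl ht hi hj)

theorem tp_okp : TP (fun x a => okp (D.p x.length).b (l x a) (t x a) (i x a) (j x a)) :=
  TP.okp h.goodF.tf_b hl ht hi hj

end gm

theorem gR_le (n : ℕ) : gR D n ^ 40 ≤ (n + 2) ^ D.e := h.goodF.hR n

/-- Number of seeds. -/
theorem tf_gR : TF (fun (x : List Bool) (_ : Fin k → ℕ) => gR D x.length) := by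
  refine (h.goodF.tf_P.powConst 2).mul (TF.par (g := fun n => 8 ^ (D.p n).τ)
    (LF.pow (LF.const 8) h.goodF.nτ ⟨D.e, fun x a => ?_⟩))
  have hP := (h.good (a 0)).hP.pos
  have h2 : 8 ^ (D.p (a 0)).τ ≤ gR D (a 0) := Nat.le_mul_of_pos_left _ (by positivity)
  have h3 : gR D (a 0) ≤ gR D (a 0) ^ 40 := Nat.le_self_pow (by norm_num) _
  refine (h2.trans (h3.trans (h.gR_le (a 0)))).trans (Nat.pow_le_pow_left ?_ D.e)
  have := arg_le_mu x a 0
  unfold mu
  simp only [univ_unique, Fin.default_eq_zero, Fin.isValue, sum_singleton]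
  omega

theorem tf_st : TF (fun (x : List Bool) (_ : Fin k → ℕ) => D.st x.length) :=
  TF.par (g := D.st) h.nst

theorem tf_ps {u : List Bool → (Fin k → ℕ) → ℕ} (hu : TF u) :
    TF (fun x a => D.ps x.length (u x a)) := TF.ap2 (g := D.ps) h.nps TF.len hu

theorem tf_nx {s u b : List Bool → (Fin k → ℕ) → ℕ} (hs : TF s) (hu : TF u) (hb : TF b) :
    TF (fun x a => D.nx x.length (s x a) (u x a) (b x a)) :=
  TF.ap4 (g := D.nx) h.nnx TF.len hs hu hb

theorem tf_gA0 {s u y : List Bool → (Fin k → ℕ) → ℕ} (hs : TF s) (hu : TF u) (hy : TF y) :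
    TF (fun x a => gA0 D x.length (s x a) (u x a) (y x a)) := by
  unfold gA0
  have h1 := TF.ite (TP.eq (h.tf_nx hs hu (TF.const 0)) hy) (TF.const 1) (TF.const (k := k) 0)
  have h2 := TF.ite (TP.eq (h.tf_nx hs hu (TF.const 1)) hy) (TF.const 1) (TF.const (k := k) 0)
  exact ((h1.add h2).mul ((h.goodF.tf_Q.sub (h.goodF.tf_Q.div h.goodF.tf_G0)).div
    (TF.const 2))).add (h.goodF.tf_Q.div (h.goodF.tf_G0.mul h.goodF.tf_N))

/-- The condition on the sampled element. -/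
theorem tp_sam {l t i j K g z : List Bool → (Fin k → ℕ) → ℕ} (hl : TF l) (ht : TF t) (hi : TF i)
    (hj : TF j) (hK : TF K) (hg : TF g) (hz : TF z) :
    TP (fun x a => sam (D.p x.length).P (wK (D.p x.length).P
      (gK0 D x.length (gm D x.length (l x a) (t x a) (i x a) (j x a))) (K x a)) (g x a)
      (z x a)) :=
  TP.sam h.goodF.tf_P (TF.wK h.goodF.tf_P (h.tf_gK0' hl ht hi hj) hK) hg hz

/-- The bucket. -/
theorem tf_buc {l t i j w z : List Bool → (Fin k → ℕ) → ℕ} (hl : TF l) (ht : TF t) (hi : TF i)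
    (hj : TF j) (hw : TF w) (hz : TF z) :
    TF (fun x a => buc (D.p x.length).P ((D.p x.length).P /
      gKb D x.length (gm D x.length (l x a) (t x a) (i x a) (j x a)) + 1) (w x a) (z x a)) :=
  TF.buc h.goodF.tf_P ((h.goodF.tf_P.div (h.tf_gKb' hl ht hi hj)).add (TF.const 1)) hw hz

/-- The threshold. -/
theorem tf_tK {l t i j K : List Bool → (Fin k → ℕ) → ℕ} (hl : TF l) (ht : TF t) (hi : TF i)
    (hj : TF j) (hK : TF K) :
    TF (fun x a => tK (D.p x.length).P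
      (gK0 D x.length (gm D x.length (l x a) (t x a) (i x a) (j x a)))
      (gBm D x.length (gm D x.length (l x a) (t x a) (i x a) (j x a))) (K x a)) :=
  TF.tK h.goodF.tf_P (h.tf_gK0' hl ht hi hj) (h.tf_gBm' hl ht hi hj) hK

/-- The seed of the amplified test. -/
theorem tf_mwk {r w i j : List Bool → (Fin k → ℕ) → ℕ} (hr : TF r) (hw : TF w) (hi : TF i)
    (hj : TF j) : TF (fun x a => mwk (D.p x.length).P
      ((r x a + w x a / gR D x.length ^ i x a) % gR D x.length) (j x a)) :=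
  TF.mwk h.goodF.tf_P ((hr.add (TF.divPow hw h.tf_gR hi)).mod h.tf_gR) hj

end Dat.Ok

end Vale.Agent.P313.AC
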