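import Vale.Agent.P313.AC.H95.SpecNF

/-!
Parts of the operator are first-order.
-/

namespace Vale.Agent.P313.AC

open Finset

section atoms

variable {k : ℕ} {l t i j sg u y K g h s w v : List Bool → (Fin k → ℕ) → ℕ}

theorem FO.aA (hl : TF l) (ht : TF t) (hu : TF u) (hy : TF y) (hv : TF v) :
    FO (fun x (X : (Fin 14 → ℕ) → Prop) a =>
      X (AC.aA (l x a) (t x a) (u x a) (y x a) (v x a))) := by
  have c0 : TF (fun (_ : List Bool) (_ : Fin k → ℕ) => 0) := TF.const 0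
  refine (FO.oraT (τ := ![fun _ _ => 0, l, t, fun _ _ => 0, fun _ _ => 0, fun _ _ => 0, u, y,
    fun _ _ => 0, fun _ _ => 0, fun _ _ => 0, fun _ _ => 0, fun _ _ => 0, v]) ?_).congr
    fun x X a => ?_
  · intro i
    match i with
    | 0 => exact c0
    | 1 => exact hl
    | 2 => exact ht
    | 3 => exact c0
    | 4 => exact c0
    | 5 => exact c0
    | 6 => exact hu
    | 7 => exact hy
    | 8 => exact c0
    | 9 => exact c0
    | 10 => exact c0
    | 11 => exact c0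
    | 12 => exact c0
    | 13 => exact hv
  · have e : (fun i => (![fun _ _ => 0, l, t, fun _ _ => 0, fun _ _ => 0, fun _ _ => 0, u, y,
        fun _ _ => 0, fun _ _ => 0, fun _ _ => 0, fun _ _ => 0, fun _ _ => 0, v] :
        Fin 14 → List Bool → (Fin k → ℕ) → ℕ) i x a) =
        AC.aA (l x a) (t x a) (u x a) (y x a) (v x a) := by
      funext i
      fin_cases i <;> rfl
    rw [e]

theorem FO.aT (hl : TF l) (ht : TF t) (hi : TF i) (hj : TF j) (hsg : TF sg) (hu : TF u)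
    (hy : TF y) (hK : TF K) (hg : TF g) (hh : TF h) (hs : TF s) (hw : TF w) (hv : TF v) :
    FO (fun x (X : (Fin 14 → ℕ) → Prop) a =>
      X (AC.aT (l x a) (t x a) (i x a) (j x a) (sg x a) (u x a) (y x a) (K x a) (g x a) (h x a)
        (s x a) (w x a) (v x a))) := by
  refine (FO.oraT (τ := ![fun _ _ => 1, l, t, i, j, sg, u, y, K, g, h, s, w, v]) ?_).congr
    fun x X a => ?_
  · intro i
    match i with
    | 0 => exact TF.const 1
    | 1 => exact hl
    | 2 => exact ht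
    | 3 => exact hi
    | 4 => exact hj
    | 5 => exact hsg
    | 6 => exact hu
    | 7 => exact hy
    | 8 => exact hK
    | 9 => exact hg
    | 10 => exact hh
    | 11 => exact hs
    | 12 => exact hw
    | 13 => exact hv
  · have e : (fun i' => (![fun _ _ => 1, l, t, i, j, sg, u, y, K, g, h, s, w, v] :
        Fin 14 → List Bool → (Fin k → ℕ) → ℕ) i' x a) =
        AC.aT (l x a) (t x a) (i x a) (j x a) (sg x a) (u x a) (y x a) (K x a) (g x a) (h x a)
        (s x a) (w x a) (v x a) := by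
      funext i'
      fin_cases i' <;> rfl
    rw [e]

theorem FO.aE (hl : TF l) (ht : TF t) (hi : TF i) (hj : TF j) (hsg : TF sg) (hu : TF u)
    (hy : TF y) (hv : TF v) :
    FO (fun x (X : (Fin 14 → ℕ) → Prop) a =>
      X (AC.aE (l x a) (t x a) (i x a) (j x a) (sg x a) (u x a) (y x a) (v x a))) := by
  have c0 : TF (fun (_ : List Bool) (_ : Fin k → ℕ) => 0) := TF.const 0
  refine (FO.oraT (τ := ![fun _ _ => 2, l, t, i, j, sg, u, y, fun _ _ => 0, fun _ _ => 0,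
    fun _ _ => 0, fun _ _ => 0, fun _ _ => 0, v]) ?_).congr fun x X a => ?_
  · intro i
    match i with
    | 0 => exact TF.const 2
    | 1 => exact hl
    | 2 => exact ht
    | 3 => exact hi
    | 4 => exact hj
    | 5 => exact hsg
    | 6 => exact hu
    | 7 => exact hy
    | 8 => exact c0
    | 9 => exact c0
    | 10 => exact c0
    | 11 => exact c0
    | 12 => exact c0
    | 13 => exact hv
  · have e : (fun i' => (![fun _ _ => 2, l, t, i, j, sg, u, y, fun _ _ => 0, fun _ _ => 0,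
        fun _ _ => 0, fun _ _ => 0, fun _ _ => 0, v] :
        Fin 14 → List Bool → (Fin k → ℕ) → ℕ) i' x a) =
        AC.aE (l x a) (t x a) (i x a) (j x a) (sg x a) (u x a) (y x a) (v x a) := by
      funext i'
      fin_cases i' <;> rfl
    rw [e]

theorem FO.aS (hl : TF l) (ht : TF t) (hsg : TF sg) (hu : TF u) (hy : TF y) (hs : TF s)
    (hw : TF w) (hv : TF v) :
    FO (fun x (X : (Fin 14 → ℕ) → Prop) a =>
      X (AC.aS (l x a) (t x a) (sg x a) (u x a) (y x a) (s x a) (w x a) (v x a))) := by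
  have c0 : TF (fun (_ : List Bool) (_ : Fin k → ℕ) => 0) := TF.const 0
  refine (FO.oraT (τ := ![fun _ _ => 3, l, t, fun _ _ => 0, fun _ _ => 0, sg, u, y,
    fun _ _ => 0, fun _ _ => 0, fun _ _ => 0, s, w, v]) ?_).congr fun x X a => ?_
  · intro i
    match i with
    | 0 => exact TF.const 3
    | 1 => exact hl
    | 2 => exact ht
    | 3 => exact c0
    | 4 => exact c0
    | 5 => exact hsg
    | 6 => exact hu
    | 7 => exact hy
    | 8 => exact c0
    | 9 => exact c0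
    | 10 => exact c0
    | 11 => exact hs
    | 12 => exact hw
    | 13 => exact hv
  · have e : (fun i' => (![fun _ _ => 3, l, t, fun _ _ => 0, fun _ _ => 0, sg, u, y,
        fun _ _ => 0, fun _ _ => 0, fun _ _ => 0, s, w, v] :
        Fin 14 → List Bool → (Fin k → ℕ) → ℕ) i' x a) =
        AC.aS (l x a) (t x a) (sg x a) (u x a) (y x a) (s x a) (w x a) (v x a) := by
      funext i'
      fin_cases i' <;> rfl
    rw [e]

end atoms

variable {D : Dat} (hD : D.Ok)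

include hD

theorem FO.dgp {k : ℕ} {l i u y c1 c2 : List Bool → (Fin k → ℕ) → ℕ} (hl : TF l) (hi : TF i)
    (hu : TF u) (hy : TF y) (h1 : TF c1) (h2 : TF c2) :
    FO (fun x X a => AC.dgp D x X (l x a) (i x a) (u x a) (y x a) (c1 x a) (c2 x a)) := by
  have ht0 := TF.t0 hD.goodF.tf_b hl
  refine FO.and (FO.aA hl hi hu hy h1) (FO.or (FO.and (FO.tp (TP.eq hi ht0))
    (FO.tp (TP.eq h2 (TF.const 0)))) (FO.and (FO.not (FO.tp (TP.eq hi ht0)))
      (FO.aA hl (hi.sub (TF.const 1)) hu hy h2)))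

theorem fo_opBit : FO (opBit D) := by
  unfold opBit
  refine FO.exT D.e ?_
  have hz1 : TF (fun (_ : List Bool) (a : Fin 15 → ℕ) => a 0) := TF.var 0
  have hv1 : ∀ i : Fin 14, TF (fun (_ : List Bool) (a : Fin 15 → ℕ) => Fin.tail a i) := fun i =>
    (TF.var i).tail
  refine FO.and (FO.tp (TP.lt hz1 hD.goodF.tf_U)) (FO.and (FO.tp (hD.tp_sam (hv1 1) (hv1 2)
    (hv1 3) (hv1 4) (hv1 8) (hv1 9) hz1)) (FO.and (FO.tp (TP.eq (hD.tf_buc (hv1 1) (hv1 2)
    (hv1 3) (hv1 4) (hv1 10) hz1) (hv1 12))) ?_))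
  refine FO.exT D.e (FO.exT D.e (FO.exT D.e (FO.exT D.e ?_)))
  have hv5 : ∀ i : Fin 14, TF (fun (_ : List Bool) (a : Fin 19 → ℕ) =>
      Fin.tail (Fin.tail (Fin.tail (Fin.tail (Fin.tail a)))) i) := fun i =>
    (hv1 i).tail.tail.tail.tail
  have hz5 : TF (fun (_ : List Bool) (a : Fin 19 → ℕ) =>
      Fin.tail (Fin.tail (Fin.tail (Fin.tail a))) 0) := hz1.tail.tail.tail.tail
  have hc1 : TF (fun (_ : List Bool) (a : Fin 19 → ℕ) => Fin.tail (Fin.tail (Fin.tail a)) 0) :=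
    (TF.var 0).tail.tail.tail
  have hc2 : TF (fun (_ : List Bool) (a : Fin 19 → ℕ) => Fin.tail (Fin.tail a) 0) :=
    (TF.var 0).tail.tail
  have hd1 : TF (fun (_ : List Bool) (a : Fin 19 → ℕ) => Fin.tail a 0) := (TF.var 0).tail
  have hd2 : TF (fun (_ : List Bool) (a : Fin 19 → ℕ) => a 0) := TF.var 0
  have hzC := hz5.div (hD.goodF.tf_C (k := 19))
  exact FO.and (FO.dgp hD (hv5 1) (hv5 3) (hv5 6) hzC hc1 hc2) (FO.and
    (FO.dgp hD (hv5 1) (hv5 4) hzC (hv5 7) hd1 hd2) (FO.tp (TP.lt (hz5.mod hD.goodF.tf_C)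
      (TF.gpd (hv5 5) hc1 hc2 hd1 hd2))))

theorem fo_opT0 : FO (opT0 D) :=
  FO.or (FO.and (FO.tp (TP.eq (TF.var 13) (TF.const 1))) (fo_opBit hD))
    (FO.and (FO.tp (TP.eq (TF.var 13) (TF.const 0))) (FO.not (fo_opBit hD)))

/-- The test. -/
theorem fo_opTs {k : ℕ} {v : Fin 14 → List Bool → (Fin k → ℕ) → ℕ} (hv : ∀ i, TF (v i))
    {K : List Bool → (Fin k → ℕ) → ℕ} (hK : TF K) :
    FO (fun x X a => opTs D x X (fun i => v i x a) (K x a)) := by
  unfold opTs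
  refine FO.exT D.e (FO.and (FO.tp ?_) (FO.allT D.e (FO.imp (FO.tp ?_) (FO.exT D.e (FO.and
    (FO.tp ?_) (FO.exT D.e (FO.and (FO.tp ?_) (FO.exT D.e (FO.and (FO.tp ?_) (FO.exT D.e
      (FO.and (FO.tp ?_) ?_)))))))))))
  · exact TP.lt (TF.var 0) (hD.tf_gR.powConst 40)
  · exact TP.lt (TF.var 0) hD.tf_gR
  · exact TP.lt (TF.var 0) (TF.const 40)
  · exact TP.lt (TF.var 0) (hD.goodF.tf_τ.add (TF.const 1))
  · exact TP.lt (TF.var 0) (hD.goodF.tf_P.powConst 2)
  all_goals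
    have hv' : ∀ i : Fin 14, TF (fun (x : List Bool) (a : Fin (k + 6) → ℕ) => v i x (Fin.tail
        (Fin.tail (Fin.tail (Fin.tail (Fin.tail (Fin.tail a))))))) := fun i =>
      (hv i).tail.tail.tail.tail.tail.tail
    have hK' : TF (fun (x : List Bool) (a : Fin (k + 6) → ℕ) => K x (Fin.tail
        (Fin.tail (Fin.tail (Fin.tail (Fin.tail (Fin.tail a))))))) :=
      hK.tail.tail.tail.tail.tail.tail
    have hw : TF (fun (_ : List Bool) (a : Fin (k + 6) → ℕ) => Fin.tail (Fin.tail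
        (Fin.tail (Fin.tail (Fin.tail a)))) 0) := (TF.var 0).tail.tail.tail.tail.tail
    have hr : TF (fun (_ : List Bool) (a : Fin (k + 6) → ℕ) => Fin.tail (Fin.tail
        (Fin.tail (Fin.tail a))) 0) := (TF.var 0).tail.tail.tail.tail
    have hi : TF (fun (_ : List Bool) (a : Fin (k + 6) → ℕ) =>
        Fin.tail (Fin.tail (Fin.tail a)) 0) := (TF.var 0).tail.tail.tail
    have hj : TF (fun (_ : List Bool) (a : Fin (k + 6) → ℕ) => Fin.tail (Fin.tail a) 0) :=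
      (TF.var 0).tail.tail
    have hh : TF (fun (_ : List Bool) (a : Fin (k + 6) → ℕ) => Fin.tail a 0) := (TF.var 0).tail
  · exact TP.le (hD.tf_tK (hv' 1) (hv' 2) (hv' 3) (hv' 4) hK') (TF.var 0)
  · exact FO.aT (hv' 1) (hv' 2) (hv' 3) (hv' 4) (hv' 5) (hv' 6) (hv' 7) hK'
      (hD.tf_mwk hr hw hi hj) hh (hD.tf_gr' (hv' 1) (hv' 2) (hv' 3) (hv' 4)) (TF.const 0)
      (TF.var 0)

theorem fo_opE : FO (opE D) := by
  unfold opE
  have h1 : FO (fun x X (a : Fin 14 → ℕ) => opTs D x X (fun i => a i) (a 13)) :=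
    fo_opTs hD (v := fun i _ a => a i) (fun i => TF.var i) (TF.var 13)
  have h2 : FO (fun x X (a : Fin 15 → ℕ) => opTs D x X (fun i => Fin.tail a i) (a 0)) :=
    fo_opTs hD (v := fun i _ a => Fin.tail a i) (fun i => (TF.var i).tail) (TF.var 0)
  refine FO.and (FO.tp (TP.le (TF.var 13) hD.goodF.tf_U)) (FO.and (FO.or (FO.tp (TP.eq
    (TF.var 13) (TF.const 0))) h1) (FO.allT D.e (FO.imp (FO.tp (TP.le (TF.var 0)
      hD.goodF.tf_U)) (FO.imp (FO.tp (TP.lt (TF.var 13).tail (TF.var 0))) (FO.not h2)))))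

/-- The adder. -/
theorem FO.adp {k : ℕ} {v : List Bool → (Fin k → ℕ) → ℕ} (hv : TF v)
    {Y : List Bool → ((Fin 14 → ℕ) → Prop) → (Fin k → ℕ) → ℕ → ℕ → Prop}
    (hY : FO (fun x X (a : Fin (k + 4) → ℕ) =>
      Y x X (Fin.tail (Fin.tail (Fin.tail (Fin.tail a)))) (Fin.tail a 0) (a 0))) :
    FO (fun x X a => AC.adp D x (v x a) (Y x X a)) := by
  unfold AC.adp
  refine FO.and (FO.tp (TP.lt hv hD.goodF.tf_V)) (FO.allT D.e (FO.imp (FO.tp (TP.le
    (TF.const 1) (TF.var 0))) (FO.imp (FO.tp (TP.lt (TF.var 0) hD.goodF.tf_Lq)) (FO.exT D.e ?_))))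
  refine FO.and (FO.tp (TP.ltPow (TF.var 0) (TF.var 0).tail hD.goodF.tf_f)) (FO.and (FO.tp (TP.eq
    ((TF.digSum hD.goodF.tf_f (TF.var 0) (TF.var 0).tail).mod (TF.var 0).tail)
    (hv.tail.tail.mod (TF.var 0).tail))) (FO.allT D.e (FO.imp (FO.tp (TP.lt (TF.var 0)
      hD.goodF.tf_f)) (FO.exT D.e ?_))))
  exact FO.and (FO.tp (TP.eq ((TF.var 0).mod (TF.var 0).tail.tail.tail)
    (TF.digit (TF.var 0).tail.tail (TF.var 0).tail.tail.tail (TF.var 0).tail))) hY

theorem fo_opT1 : FO (opT1 D) := by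
  unfold opT1
  have hv : ∀ i : Fin 14, TF (fun (_ : List Bool) (a : Fin 18 → ℕ) =>
      Fin.tail (Fin.tail (Fin.tail (Fin.tail a))) i) := fun i => (TF.var i).tail.tail.tail.tail
  exact FO.adp hD (TF.var 13) (FO.aT (hv 1) (hv 2) (hv 3) (hv 4) (hv 5) (hv 6) (hv 7) (hv 8)
    (hv 9) (hv 10) ((hv 11).sub (TF.const 1)) (((hv 12).mul hD.goodF.tf_f).add (TF.var 0).tail)
    (TF.var 0))

theorem fo_opS1 : FO (opS1 D) := by
  unfold opS1
  have hv : ∀ i : Fin 14, TF (fun (_ : List Bool) (a : Fin 18 → ℕ) =>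
      Fin.tail (Fin.tail (Fin.tail (Fin.tail a))) i) := fun i => (TF.var i).tail.tail.tail.tail
  exact FO.adp hD (TF.var 13) (FO.aS (hv 1) (hv 2) (hv 5) (hv 6) (hv 7)
    ((hv 11).sub (TF.const 1)) (((hv 12).mul hD.goodF.tf_f).add (TF.var 0).tail) (TF.var 0))

theorem fo_opS0 : FO (opS0 D) := by
  unfold opS0
  have hi := (TF.var (k := 14) 12).div hD.tf_gJ
  have hj := (TF.var (k := 14) 12).mod hD.tf_gJ
  have ho := hD.tp_okp (TF.var (k := 14) 1) (TF.var 2) hi hj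
  exact FO.or (FO.and (FO.tp ho) (FO.aE (TF.var 1) (TF.var 2) hi hj (TF.var 5) (TF.var 6)
    (TF.var 7) (TF.var 13))) (FO.and (FO.not (FO.tp ho)) (FO.tp (TP.eq (TF.var 13)
      (TF.const 0))))

theorem fo_opA0 : FO (opA0 D) := by
  unfold opA0
  exact FO.exT D.e (FO.and (FO.sympr (hD.tf_ps (TF.var 6).tail) (TF.var 0)) (FO.tp (TP.eq
    (TF.var 13).tail (hD.tf_gA0 (TF.var 0) (TF.var 6).tail (TF.var 7).tail))))

theorem fo_opA1 : FO (opA1 D) := by
  unfold opA1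
  have hv : ∀ i : Fin 14, TF (fun (_ : List Bool) (a : Fin 16 → ℕ) =>
      Fin.tail (Fin.tail a) i) := fun i => (TF.var i).tail.tail
  exact FO.exT D.e (FO.exT D.e (FO.and (FO.aS ((hv 1).sub (TF.const 1)) (hv 2) (TF.const 0)
    (hv 6) (hv 7) (TF.const (2 * D.j0)) (TF.const 0) (TF.var 0).tail) (FO.and (FO.aS ((hv 1).sub
      (TF.const 1)) (hv 2) (TF.const 1) (hv 6) (hv 7) (TF.const (2 * D.j0)) (TF.const 0)
      (TF.var 0)) (FO.tp (TP.eq (hv 13) (((TF.var 0).tail.sub (TF.var 0)).div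
        hD.goodF.tf_Q))))))

theorem fo_opO : FO (opO D) := by
  unfold opO
  exact FO.exT D.e (FO.and (FO.tp (TP.le hD.goodF.tf_Q ((TF.const 2).mul (TF.var 0))))
    (FO.aA hD.goodF.tf_L hD.goodF.tf_tm hD.tf_st (TF.const 0) (TF.var 0)))

theorem fo_opF : FO (opF D) := by
  unfold opF
  have h0 : ∀ (i : Fin 14) (c : ℕ),
      FO (fun _ (_ : (Fin 14 → ℕ) → Prop) (a : Fin 14 → ℕ) => a i = c) := fun i c =>
    FO.tp (TP.eq (TF.var i) (TF.const c))
  exact FO.or (FO.and (h0 0 0) (FO.and (h0 1 0) (fo_opA0 hD))) (FO.or (FO.and (h0 0 0) (FO.and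
    (FO.not (h0 1 0)) (fo_opA1 hD))) (FO.or (FO.and (h0 0 1) (FO.and (h0 11 0) (fo_opT0 hD)))
    (FO.or (FO.and (h0 0 1) (FO.and (FO.not (h0 11 0)) (fo_opT1 hD))) (FO.or (FO.and (h0 0 2)
      (fo_opE hD)) (FO.or (FO.and (h0 0 3) (FO.and (h0 11 0) (fo_opS0 hD))) (FO.or (FO.and
        (h0 0 3) (FO.and (FO.not (h0 11 0)) (fo_opS1 hD))) (FO.and (h0 0 4) (fo_opO hD))))))))

omit hD in
/-- **The operator is first-order.** -/
theorem H95.modF1 : ModF1 := fun _ hD => fo_opF hD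

end Vale.Agent.P313.AC
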