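import Vale.Agent.P313.AC.H95.G

/-!
Module G for the gap form: the parameters for the precision `(n + 2) ^ (-k)`.
-/

namespace Vale.Agent.P313.AC

open Finset

/-- Good parameters for the precision `(n + 2) ^ (-k)`. -/
structure GoodK (c k κ j0 n : ℕ) (p : Pr) : Prop extends Good c κ j0 n p where
  hEk : (n + 2) ^ (2 * k + 8) * 4 ^ p.L ≤ (2 ^ p.b) ^ p.tm
  hgk : p.L + 2 * k * lam n + 8 ≤ p.g0
  hgk' : (n + 2) ^ k * 2 ^ (p.L + 8) ≤ 2 ^ p.g0

/-- Good parameters exist for every precision. -/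
def ModGk : Prop := ∀ c k : ℕ, 1 ≤ c → ∃ (κ j0 e : ℕ) (p : ℕ → Pr), 1 ≤ κ ∧ 1 ≤ j0 ∧
  (∀ n, GoodK c k κ j0 n (p n)) ∧ GoodF κ j0 e p

end Vale.Agent.P313.AC

namespace Vale.Agent.P313.AC.H95

open Finset

/-- The parameters for `2 ^ (c λ)` states with the precision of `2 ^ (d λ)` states. -/
noncomputable def prk (c d κ n : ℕ) : Pr :=
  { pr d κ n with N := 2 ^ (c * lam n), L := c * lam n }

theorem le_two_pow (n : ℕ) : n + 2 ≤ 4 ^ lam n := by
  have h0 := lam_pos n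
  have h1 : n + 2 < 2 ^ (lam n + 1) := Nat.lt_pow_succ_log_self (by norm_num) _
  have h2 : 2 ^ (lam n + 1) ≤ 2 ^ (2 * lam n) := Nat.pow_le_pow_right (by norm_num) (by omega)
  rw [pow_mul] at h2
  norm_num at h2
  omega

section

variable {c d κ : ℕ} (hcd : c ≤ d) (n : ℕ)

include hcd

theorem L_le : c * lam n ≤ d * lam n := Nat.mul_le_mul_right _ hcd

theorem N_le : 2 ^ (c * lam n) ≤ 2 ^ (d * lam n) := Nat.pow_le_pow_right (by norm_num) (L_le hcd n)

theorem U_le : (prk c d κ n).U ≤ (pr d κ n).U := Nat.mul_le_mul_right _ (N_le hcd n)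

/-- All inequalities. -/
theorem goodk (h : Good d κ κ n (pr d κ n)) : Good c κ κ n (prk c d κ n) where
  f2 := h.f2
  b1 := h.b1
  hB := h.hB
  hN := rfl
  hL := rfl
  hg := (Nat.add_le_add_right (L_le hcd n) 6).trans h.hg
  htm := (Nat.add_le_add_right (Nat.div_le_div_right (Nat.mul_le_mul_left 2 (L_le hcd n))) 1).trans
    h.htm
  hE := (Nat.mul_le_mul_left 100 (Nat.pow_le_pow_right (by norm_num) (L_le hcd n))).trans h.hE
  hJ := h.hJ
  hB1 := h.hB1
  hB2 := h.hB2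
  hQ1 := (mul_dvd_mul_left _ (pow_dvd_pow 2 (L_le hcd n))).trans h.hQ1
  hQ2 := (Nat.mul_le_mul_left _ (Nat.mul_le_mul_left _ (N_le hcd n))).trans h.hQ2
  hP := h.hP
  hU := (U_le hcd n).trans_lt h.hU
  hK := h.hK
  hτ := h.hτ
  hV := lt_of_le_of_lt (Nat.add_le_add_right (Nat.add_le_add_right
    (Nat.mul_le_mul_left _ (U_le hcd n)) _) _) h.hV
  hLq := h.hLq

end

theorem goodFk (c d κ : ℕ) (hcd : c ≤ d) : ∃ e, GoodF κ κ e (prk c d κ) := by
  obtain ⟨e, h⟩ := goodF d κ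
  exact ⟨e, h.nf, h.nb, nf_N c, nf_L c, h.ng0, h.ntm, h.nQ, h.nP, h.nτ, h.nV, h.nLq, h.nB, h.hV,
    h.hR, h.hq, h.hG, fun n => (Nat.add_le_add_right (L_le hcd n) _).trans (h.hL n)⟩

/-- **Good parameters exist for every precision.** -/
theorem modGk : ModGk := by
  intro c k _
  set d := c + (2 * k + 8) with hd
  have hcd : c ≤ d := by omega
  obtain ⟨e, he⟩ := goodFk c d (d + 40) hcd
  refine ⟨d + 40, d + 40, e, prk c d (d + 40), by omega, by omega, fun n => ?_, he⟩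
  have hg : Good d (d + 40) (d + 40) n (pr d (d + 40) n) := by
    refine good (by omega) ?_ ?_ n
    · rw [show d + 40 - 4 = d + 36 by omega]
      exact c_bound1 d
    · rw [show d + 40 - 4 = d + 36 by omega]
      exact c_bound2 d
  have h0 := lam_pos n
  have hg0 : c * lam n + 2 * k * lam n + 8 ≤ d * lam n + 6 := by
    rw [hd]
    nlinarith
  refine ⟨goodk hcd n hg, ?_, hg0, ?_⟩
  · change (n + 2) ^ (2 * k + 8) * 4 ^ (c * lam n) ≤ _
    calc (n + 2) ^ (2 * k + 8) * 4 ^ (c * lam n) ≤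
          (4 ^ lam n) ^ (2 * k + 8) * 4 ^ (c * lam n) :=
          Nat.mul_le_mul_right _ (Nat.pow_le_pow_left (le_two_pow n) _)
      _ = 4 ^ (d * lam n) := by
          rw [← pow_mul, ← pow_add, hd]
          congr 1
          ring
      _ ≤ 100 * 4 ^ (d * lam n) := by omega
      _ ≤ _ := hg.hE
  · change (n + 2) ^ k * 2 ^ (c * lam n + 8) ≤ 2 ^ (d * lam n + 6)
    calc (n + 2) ^ k * 2 ^ (c * lam n + 8) ≤ (4 ^ lam n) ^ k * 2 ^ (c * lam n + 8) :=
          Nat.mul_le_mul_right _ (Nat.pow_le_pow_left (le_two_pow n) _)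
      _ = 2 ^ (2 * k * lam n + (c * lam n + 8)) := by
          rw [show (4 : ℕ) = 2 ^ 2 by norm_num, ← pow_mul, ← pow_mul, ← pow_add]
          congr 1
          ring
      _ ≤ _ := Nat.pow_le_pow_right (by norm_num) (by omega)

end Vale.Agent.P313.AC.H95
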