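import Vale.Agent.P313.AC.G.Spec
import Vale.Agent.P313.AC.H95.Gk

/-!
Module G for the gap form, in the letters of the specification.
-/

namespace Vale.Agent.P313.AC.H95

open Finset

/-- **Good parameters exist for any precision.** -/
theorem modGg : ModGg := by
  intro c k hc
  obtain ⟨κ, j0, e, p, h1, h2, h3, h4⟩ := modGk c k hc
  refine ⟨κ, j0, e, p, h1, h2, fun n => (h3 n).toGood, h4, fun n => ⟨?_, ?_⟩⟩
  · refine le_trans (Nat.mul_le_mul_right _ ?_) (h3 n).hEk
    have e1 : (n + 2) ^ (2 * k + 8) = (n + 2) ^ (k + 8) * (n + 2) ^ k := by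
      rw [← pow_add]
      congr 1
      ring
    rw [e1]
    refine Nat.mul_le_mul_right _ ?_
    calc 4 = 2 ^ 2 := by norm_num
      _ ≤ 2 ^ (k + 8) := Nat.pow_le_pow_right (by norm_num) (by omega)
      _ ≤ (n + 2) ^ (k + 8) := Nat.pow_le_pow_left (by omega) _
  · refine le_trans ?_ (h3 n).hgk'
    rw [mul_comm]
    exact Nat.mul_le_mul_left _ (Nat.pow_le_pow_right (by norm_num) (by omega))

end Vale.Agent.P313.AC.H95
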