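import Vale.Agent.P313.AC.SpecE

/-!
Module G: the parameters.
-/

namespace Vale.Agent.P313.AC.H95

open Finset

/-! ### The parameters -/

/-- Exponent of the fan-in. -/
def ph (n : ℕ) : ℕ := Nat.log 2 (lam n) / 2 + 1

/-- Number of bits of the base. -/
def bb (κ n : ℕ) : ℕ := κ * ph n

/-- Last digit. -/
def tt (c κ n : ℕ) : ℕ := 2 * (c * lam n) / bb κ n + 8

/-- Exponent of the scale. -/
def qe (c κ n : ℕ) : ℕ := c * lam n + 6 + 1 + c * lam n + bb κ n * tt c κ n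

/-- The universe. -/
def uu (c κ n : ℕ) : ℕ := 2 ^ (c * lam n) * (4 * (2 ^ qe c κ n) ^ 2 + 1)

/-- The modulus. -/
noncomputable def pp (c κ n : ℕ) : ℕ :=
  nxp (uu c κ n + 1 + 2 ^ (bb κ n * (4 * (tt c κ n + 3) + 3)))

/-- Bound for all values. -/
noncomputable def vv (c κ n : ℕ) : ℕ :=
  (2 ^ ph n) ^ (2 * κ) * uu c κ n + pp c κ n + 4 * 2 ^ qe c κ n + 1

/-- The parameters. -/
noncomputable def pr (c κ n : ℕ) : Pr where
  f := 2 ^ ph n
  b := bb κ n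
  N := 2 ^ (c * lam n)
  L := c * lam n
  g0 := c * lam n + 6
  tm := tt c κ n
  Q := 2 ^ qe c κ n
  P := pp c κ n
  τ := 2 * Nat.log 2 (pp c κ n) + 2
  V := vv c κ n
  Lq := 2 * Nat.log 2 (vv c κ n) + 3

/-! ### Estimates -/

theorem lam_pos (n : ℕ) : 1 ≤ lam n := by
  unfold lam
  have h := Nat.log_mono_right (b := 2) (show 2 ≤ n + 2 by omega)
  have h2 : Nat.log 2 2 = 1 := by norm_num
  omega

theorem two_pow_lam (n : ℕ) : 2 ^ lam n ≤ n + 2 := Nat.pow_log_le_self 2 (by omega)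

theorem two_pow_le {n a C : ℕ} (h : a ≤ C * lam n) : 2 ^ a ≤ (n + 2) ^ C := by
  calc 2 ^ a ≤ 2 ^ (C * lam n) := Nat.pow_le_pow_right (by norm_num) h
    _ = (2 ^ lam n) ^ C := by rw [mul_comm, pow_mul]
    _ ≤ (n + 2) ^ C := Nat.pow_le_pow_left (two_pow_lam n) C

theorem ph_pos (n : ℕ) : 1 ≤ ph n := by unfold ph; omega

theorem ph_le (n : ℕ) : ph n ≤ lam n := by
  have h1 : Nat.log 2 (lam n) < lam n := Nat.log_lt_self 2 (by have := lam_pos n; omega)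
  unfold ph
  omega

theorem lam_le_sq (n : ℕ) : lam n ≤ (2 ^ ph n) ^ 2 := by
  have h1 : lam n < 2 ^ (Nat.log 2 (lam n) + 1) := Nat.lt_pow_succ_log_self (by norm_num) _
  have h2 : 2 ^ (Nat.log 2 (lam n) + 1) ≤ (2 ^ ph n) ^ 2 := by
    rw [← pow_mul]
    refine Nat.pow_le_pow_right (by norm_num) ?_
    unfold ph
    omega
  omega

/-- `λ ^ f ≤ 2 ^ (4 λ)` and `f ≤ 2 λ`. -/
theorem four_pow_aux (h : ℕ) : 4 * h + 2 ≤ 4 * 2 ^ h := by
  have : h < 2 ^ h := Nat.lt_two_pow_self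
  omega

theorem lam_pow (n : ℕ) : lam n ^ (2 ^ ph n) ≤ 2 ^ (4 * lam n) := by
  set l := Nat.log 2 (lam n) with hl
  have h0 := lam_pos n
  have h1 : lam n ≤ 2 ^ (l + 1) := (Nat.lt_pow_succ_log_self (by norm_num) _).le
  have h2 : 2 ^ l ≤ lam n := Nat.pow_log_le_self 2 (by omega)
  have h3 : (l + 1) * 2 ^ ph n ≤ 4 * 2 ^ l := by
    have e1 : ph n = l / 2 + 1 := rfl
    set h := l - l / 2 with hh
    have e2 : 2 ^ l = 2 ^ (l / 2) * 2 ^ h := by rw [← pow_add]; congr 1; omega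
    have e3 := four_pow_aux h
    have e4 : (l + 1) * 2 ≤ 4 * 2 ^ h := by omega
    calc (l + 1) * 2 ^ ph n = 2 ^ (l / 2) * ((l + 1) * 2) := by rw [e1]; ring
      _ ≤ 2 ^ (l / 2) * (4 * 2 ^ h) := Nat.mul_le_mul_left _ e4
      _ = 4 * 2 ^ l := by rw [e2]; ring
  calc lam n ^ (2 ^ ph n) ≤ (2 ^ (l + 1)) ^ (2 ^ ph n) := Nat.pow_le_pow_left h1 _
    _ = 2 ^ ((l + 1) * 2 ^ ph n) := by rw [← pow_mul]
    _ ≤ 2 ^ (4 * lam n) := Nat.pow_le_pow_right (by norm_num) (by omega)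

theorem f_le (n : ℕ) : 2 ^ ph n ≤ 2 * lam n := by
  set l := Nat.log 2 (lam n) with hl
  have h0 := lam_pos n
  have h2 : 2 ^ l ≤ lam n := Nat.pow_log_le_self 2 (by omega)
  have h3 : 2 ^ ph n ≤ 2 * 2 ^ l := by
    rw [← pow_succ']
    refine Nat.pow_le_pow_right (by norm_num) ?_
    change l / 2 + 1 ≤ l + 1
    omega
  omega

section bounds

variable (c κ n : ℕ)

theorem bb_le : bb κ n ≤ κ * lam n := Nat.mul_le_mul_left _ (ph_le n)

theorem tt_le : tt c κ n ≤ (2 * c + 8) * lam n := by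
  have h0 := lam_pos n
  have h1 : 2 * (c * lam n) / bb κ n ≤ 2 * (c * lam n) := Nat.div_le_self _ _
  unfold tt
  nlinarith

theorem btt_le : bb κ n * tt c κ n ≤ (2 * c + 8 * κ) * lam n := by
  have h1 := bb_le κ n
  have h2 : bb κ n * (2 * (c * lam n) / bb κ n) ≤ 2 * (c * lam n) := Nat.mul_div_le _ _
  unfold tt
  nlinarith

theorem btt_ge (hκ : 1 ≤ κ) : 2 * (c * lam n) + 8 ≤ bb κ n * tt c κ n := by
  have h1 : 1 ≤ bb κ n := Nat.mul_pos hκ (ph_pos n)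
  have h2 := Nat.div_add_mod (2 * (c * lam n)) (bb κ n)
  have h3 : 2 * (c * lam n) % bb κ n < bb κ n := Nat.mod_lt _ h1
  unfold tt
  nlinarith

theorem qe_le : qe c κ n ≤ (4 * c + 8 * κ + 7) * lam n := by
  have h0 := lam_pos n
  have h1 := btt_le c κ n
  unfold qe
  nlinarith

theorem uu_le : uu c κ n ≤ 2 ^ ((9 * c + 16 * κ + 17) * lam n) := by
  have h0 := lam_pos n
  have h1 := qe_le c κ n
  have h2 : 4 * (2 ^ qe c κ n) ^ 2 + 1 ≤ 2 ^ (2 * qe c κ n + 3) := by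
    have : 1 ≤ (2 ^ qe c κ n) ^ 2 := Nat.one_le_pow _ _ (by positivity)
    have e : 2 ^ (2 * qe c κ n + 3) = 8 * (2 ^ qe c κ n) ^ 2 := by ring
    rw [e]
    omega
  calc uu c κ n ≤ 2 ^ (c * lam n) * 2 ^ (2 * qe c κ n + 3) := Nat.mul_le_mul_left _ h2
    _ = 2 ^ (c * lam n + (2 * qe c κ n + 3)) := by rw [← pow_add]
    _ ≤ _ := Nat.pow_le_pow_right (by norm_num) (by nlinarith)

theorem mm_le : uu c κ n + 1 + 2 ^ (bb κ n * (4 * (tt c κ n + 3) + 3)) ≤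
    2 ^ ((17 * c + 63 * κ + 19) * lam n) := by
  have h0 := lam_pos n
  have h1 := uu_le c κ n
  have h2 := btt_le c κ n
  have h3 := bb_le κ n
  have h4 : bb κ n * (4 * (tt c κ n + 3) + 3) ≤ (8 * c + 47 * κ) * lam n := by nlinarith
  have h5 : 2 ^ (bb κ n * (4 * (tt c κ n + 3) + 3)) ≤ 2 ^ ((8 * c + 47 * κ) * lam n) :=
    Nat.pow_le_pow_right (by norm_num) h4
  have e : 2 ^ ((17 * c + 63 * κ + 19) * lam n) = 2 ^ ((9 * c + 16 * κ + 17) * lam n) *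
      2 ^ ((8 * c + 47 * κ) * lam n) * 2 ^ (2 * lam n) := by
    rw [← pow_add, ← pow_add]
    congr 1
    ring
  have h6 : 4 ≤ 2 ^ (2 * lam n) := by
    calc 4 = 2 ^ 2 := by norm_num
      _ ≤ 2 ^ (2 * lam n) := Nat.pow_le_pow_right (by norm_num) (by omega)
  have h7 : 1 ≤ 2 ^ ((9 * c + 16 * κ + 17) * lam n) := Nat.one_le_two_pow
  have h8 : 1 ≤ 2 ^ ((8 * c + 47 * κ) * lam n) := Nat.one_le_two_pow
  rw [e]
  set X := 2 ^ ((9 * c + 16 * κ + 17) * lam n)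
  set Y := 2 ^ ((8 * c + 47 * κ) * lam n)
  have h9 : X ≤ X * Y := Nat.le_mul_of_pos_right _ h8
  have h10 : Y ≤ X * Y := Nat.le_mul_of_pos_left _ h7
  have h11 : X * Y * 4 ≤ X * Y * 2 ^ (2 * lam n) := Nat.mul_le_mul_left _ h6
  omega

theorem pp_spec : (pp c κ n).Prime ∧
    uu c κ n + 1 + 2 ^ (bb κ n * (4 * (tt c κ n + 3) + 3)) ≤ pp c κ n ∧
    pp c κ n ≤ 2 ^ ((17 * c + 63 * κ + 20) * lam n) := by
  have h0 := lam_pos n
  obtain ⟨h1, h2, h3⟩ := nxp_spec (m := uu c κ n + 1 +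
    2 ^ (bb κ n * (4 * (tt c κ n + 3) + 3))) (Nat.succ_le_of_lt (by positivity))
  refine ⟨h1, h2, h3.trans ?_⟩
  have h4 := mm_le c κ n
  have e : 2 ^ ((17 * c + 63 * κ + 20) * lam n) =
      2 ^ ((17 * c + 63 * κ + 19) * lam n) * 2 ^ lam n := by
    rw [← pow_add]
    congr 1
    ring
  have h5 : 2 ≤ 2 ^ lam n := by
    calc 2 = 2 ^ 1 := by norm_num
      _ ≤ 2 ^ lam n := Nat.pow_le_pow_right (by norm_num) h0
  rw [e]
  calc 2 * _ ≤ 2 * 2 ^ ((17 * c + 63 * κ + 19) * lam n) := Nat.mul_le_mul_left _ h4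
    _ ≤ _ := by rw [mul_comm]; exact Nat.mul_le_mul_left _ h5

theorem logp_le : Nat.log 2 (pp c κ n) ≤ (17 * c + 63 * κ + 20) * lam n := by
  have h := Nat.log_mono_right (b := 2) (pp_spec c κ n).2.2
  rwa [Nat.log_pow (by norm_num)] at h

theorem tau_le : 2 * Nat.log 2 (pp c κ n) + 2 ≤ (34 * c + 126 * κ + 42) * lam n := by
  have h0 := lam_pos n
  have h1 := logp_le c κ n
  nlinarith

theorem vv_le : vv c κ n ≤ 2 ^ ((30 * c + 89 * κ + 46) * lam n) := by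
  have h0 := lam_pos n
  have h1 := uu_le c κ n
  have h2 := (pp_spec c κ n).2.2
  have h3 := qe_le c κ n
  have h4 : (2 ^ ph n) ^ (2 * κ) ≤ 2 ^ (2 * κ * lam n) := by
    rw [← pow_mul]
    refine Nat.pow_le_pow_right (by norm_num) ?_
    have := Nat.mul_le_mul_left (2 * κ) (ph_le n)
    linarith [mul_comm (ph n) (2 * κ)]
  have h5 : 4 * 2 ^ qe c κ n ≤ 2 ^ ((4 * c + 8 * κ + 9) * lam n) := by
    calc 4 * 2 ^ qe c κ n = 2 ^ (qe c κ n + 2) := by ring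
      _ ≤ _ := Nat.pow_le_pow_right (by norm_num) (by nlinarith)
  have h6 : (2 ^ ph n) ^ (2 * κ) * uu c κ n ≤ 2 ^ ((9 * c + 18 * κ + 17) * lam n) := by
    calc _ ≤ 2 ^ (2 * κ * lam n) * 2 ^ ((9 * c + 16 * κ + 17) * lam n) := Nat.mul_le_mul h4 h1
      _ = _ := by rw [← pow_add]; congr 1; ring
  set A := (9 * c + 18 * κ + 17) * lam n
  set B := (17 * c + 63 * κ + 20) * lam n
  set D := (4 * c + 8 * κ + 9) * lam n
  have e : (30 * c + 89 * κ + 46) * lam n ≥ max A (max B D) + 2 := by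
    have : A + B + D = (30 * c + 89 * κ + 46) * lam n := by simp only [A, B, D]; ring
    have hA : 17 ≤ A := by
      calc 17 ≤ (9 * c + 18 * κ + 17) * 1 := by omega
        _ ≤ _ := Nat.mul_le_mul_left _ h0
    have hB : 20 ≤ B := by
      calc 20 ≤ (17 * c + 63 * κ + 20) * 1 := by omega
        _ ≤ _ := Nat.mul_le_mul_left _ h0
    omega
  set M := max A (max B D)
  have hA : 2 ^ A ≤ 2 ^ M := Nat.pow_le_pow_right (by norm_num) (by omega)
  have hB : 2 ^ B ≤ 2 ^ M := Nat.pow_le_pow_right (by norm_num) (by omega)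
  have hD : 2 ^ D ≤ 2 ^ M := Nat.pow_le_pow_right (by norm_num) (by omega)
  have hM : 1 ≤ 2 ^ M := Nat.one_le_two_pow
  calc vv c κ n ≤ 2 ^ M * 4 := by unfold vv; omega
    _ = 2 ^ (M + 2) := by ring
    _ ≤ _ := Nat.pow_le_pow_right (by norm_num) e

theorem lq_le : 2 * Nat.log 2 (vv c κ n) + 3 ≤ (60 * c + 178 * κ + 95) * lam n := by
  have h0 := lam_pos n
  have h := Nat.log_mono_right (b := 2) (vv_le c κ n)
  rw [Nat.log_pow (by norm_num)] at h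
  nlinarith

end bounds

/-- Large powers of the fan-in. -/
theorem pow_ge {κ n : ℕ} (hκ : 4 ≤ κ) : 2 ^ (κ - 4) * lam n ^ 2 ≤ (2 ^ ph n) ^ κ := by
  have h1 : lam n ^ 2 ≤ ((2 ^ ph n) ^ 2) ^ 2 := Nat.pow_le_pow_left (lam_le_sq n) 2
  have h2 : 2 ≤ 2 ^ ph n := by
    calc 2 = 2 ^ 1 := by norm_num
      _ ≤ _ := Nat.pow_le_pow_right (by norm_num) (ph_pos n)
  calc 2 ^ (κ - 4) * lam n ^ 2 ≤ (2 ^ ph n) ^ (κ - 4) * ((2 ^ ph n) ^ 2) ^ 2 :=
        Nat.mul_le_mul (Nat.pow_le_pow_left h2 _) h1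
    _ = (2 ^ ph n) ^ (κ - 4 + 4) := by
        rw [pow_add]
        ring
    _ = (2 ^ ph n) ^ κ := by
        congr 1
        omega

theorem c_bound1 (c : ℕ) : 18 * (2 * c + 9) ^ 2 ≤ 2 ^ (c + 36) := by
  induction c with
  | zero => norm_num
  | succ c ih =>
    have e : 2 ^ (c + 1 + 36) = 2 * 2 ^ (c + 36) := by ring
    rw [e]
    have h : (2 * (c + 1) + 9) ^ 2 ≤ 2 * (2 * c + 9) ^ 2 := by
      have h' : 2 * (2 * c + 9) ^ 2 = (2 * (c + 1) + 9) ^ 2 + (4 * c ^ 2 + 28 * c + 41) := by ring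
      rw [h']
      exact Nat.le_add_right _ _
    calc 18 * (2 * (c + 1) + 9) ^ 2 ≤ 18 * (2 * (2 * c + 9) ^ 2) := Nat.mul_le_mul_left _ h
      _ = 2 * (18 * (2 * c + 9) ^ 2) := by ring
      _ ≤ _ := Nat.mul_le_mul_left _ ih

theorem c_bound2 (c : ℕ) : 16000 * (34 * c + 126 * (c + 40) + 43) ≤ 2 ^ (c + 36) := by
  have h1 : 16000 * (34 * c + 126 * (c + 40) + 43) ≤ 81328000 * (c + 1) := by
    ring_nf
    omega
  have h2 : c + 1 ≤ 2 ^ c := Nat.lt_two_pow_self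
  have h3 : (81328000 : ℕ) ≤ 2 ^ 36 := by norm_num
  calc _ ≤ 81328000 * (c + 1) := h1
    _ ≤ 2 ^ 36 * 2 ^ c := Nat.mul_le_mul h3 h2
    _ = 2 ^ (c + 36) := by rw [pow_add, mul_comm]

section pr

variable (c κ n : ℕ)

theorem pr_f : (pr c κ n).f = 2 ^ ph n := rfl
theorem pr_b : (pr c κ n).b = bb κ n := rfl
theorem pr_N : (pr c κ n).N = 2 ^ (c * lam n) := rfl
theorem pr_L : (pr c κ n).L = c * lam n := rfl
theorem pr_g0 : (pr c κ n).g0 = c * lam n + 6 := rfl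
theorem pr_tm : (pr c κ n).tm = tt c κ n := rfl
theorem pr_Q : (pr c κ n).Q = 2 ^ qe c κ n := rfl
theorem pr_P : (pr c κ n).P = pp c κ n := rfl
theorem pr_τ : (pr c κ n).τ = 2 * Nat.log 2 (pp c κ n) + 2 := rfl
theorem pr_V : (pr c κ n).V = vv c κ n := rfl
theorem pr_Lq : (pr c κ n).Lq = 2 * Nat.log 2 (vv c κ n) + 3 := rfl
theorem pr_U : (pr c κ n).U = uu c κ n := by
  unfold Pr.U Pr.C
  rw [pr_N, pr_Q]
  rfl

end pr

/-- All inequalities. -/
theorem good {c κ : ℕ} (hκ : 4 ≤ κ) (hc1 : 18 * (2 * c + 9) ^ 2 ≤ 2 ^ (κ - 4))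
    (hc2 : 16000 * (34 * c + 126 * κ + 43) ≤ 2 ^ (κ - 4)) (n : ℕ) :
    Good c κ κ n (pr c κ n) := by
  have h0 := lam_pos n
  obtain ⟨hp1, hp2, hp3⟩ := pp_spec c κ n
  have hf2 : 2 ≤ 2 ^ ph n := by
    calc 2 = 2 ^ 1 := by norm_num
      _ ≤ _ := Nat.pow_le_pow_right (by norm_num) (ph_pos n)
  have hB : 2 ^ bb κ n = (2 ^ ph n) ^ κ := by
    rw [← pow_mul]
    congr 1
    unfold bb
    ring
  have hpow := pow_ge (κ := κ) (n := n) hκ
  have hB1 : 18 * (tt c κ n + 1) ^ 2 ≤ 2 ^ bb κ n := by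
    rw [hB]
    refine le_trans ?_ hpow
    have h1 := tt_le c κ n
    have h2 : tt c κ n + 1 ≤ (2 * c + 9) * lam n := by nlinarith
    calc 18 * (tt c κ n + 1) ^ 2 ≤ 18 * ((2 * c + 9) * lam n) ^ 2 :=
          Nat.mul_le_mul_left _ (Nat.pow_le_pow_left h2 2)
      _ = 18 * (2 * c + 9) ^ 2 * lam n ^ 2 := by ring
      _ ≤ _ := Nat.mul_le_mul_right _ hc1
  have hB2 : 16000 * (2 * Nat.log 2 (pp c κ n) + 2 + 1) ≤ 2 ^ bb κ n := by
    rw [hB]
    refine le_trans ?_ hpow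
    have h1 := tau_le c κ n
    have h2 : 2 * Nat.log 2 (pp c κ n) + 2 + 1 ≤ (34 * c + 126 * κ + 43) * lam n ^ 2 := by
      have h3 : lam n ≤ lam n ^ 2 := by nlinarith
      calc 2 * Nat.log 2 (pp c κ n) + 2 + 1 ≤ (34 * c + 126 * κ + 42) * lam n + 1 * lam n := by
            omega
        _ = (34 * c + 126 * κ + 43) * lam n := by ring
        _ ≤ _ := Nat.mul_le_mul_left _ h3
    calc 16000 * (2 * Nat.log 2 (pp c κ n) + 2 + 1) ≤
          16000 * ((34 * c + 126 * κ + 43) * lam n ^ 2) := Nat.mul_le_mul_left _ h2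
      _ = 16000 * (34 * c + 126 * κ + 43) * lam n ^ 2 := by ring
      _ ≤ _ := Nat.mul_le_mul_right _ hc2
  constructor
  case f2 => rw [pr_f]; exact hf2
  case b1 => rw [pr_b]; exact Nat.mul_pos (by omega) (ph_pos n)
  case hB => rw [pr_b, pr_f]; exact hB
  case hN => exact pr_N c κ n
  case hL => exact pr_L c κ n
  case hg => rw [pr_L, pr_g0]
  case htm =>
    rw [pr_b, pr_L, pr_tm]
    unfold t0 tt
    omega
  case hE =>
    rw [pr_b, pr_L, pr_tm, ← pow_mul]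
    have h1 := btt_ge c κ n (by omega)
    have e4 : 4 ^ (c * lam n) = 2 ^ (2 * (c * lam n)) := by rw [pow_mul 2 2]; norm_num
    calc 100 * 4 ^ (c * lam n) = 100 * 2 ^ (2 * (c * lam n)) := by rw [e4]
      _ ≤ 2 ^ 8 * 2 ^ (2 * (c * lam n)) := Nat.mul_le_mul_right _ (by norm_num)
      _ = 2 ^ (2 * (c * lam n) + 8) := by rw [pow_add, mul_comm]
      _ ≤ _ := Nat.pow_le_pow_right (by norm_num) h1
  case hJ =>
    rw [pr_tm, pr_f, ← hB]
    nlinarith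
  case hB1 => rw [pr_tm, pr_b]; exact hB1
  case hB2 => rw [pr_τ, pr_b]; exact hB2
  case hQ1 =>
    rw [pr_g0, pr_N, pr_Q, ← pow_add]
    refine pow_dvd_pow _ ?_
    unfold qe
    omega
  case hQ2 =>
    rw [pr_g0, pr_N, pr_Q, pr_b, pr_tm]
    apply le_of_eq
    unfold qe
    rw [← pow_mul, ← pow_add, ← pow_succ', ← pow_add]
    congr 1
    ring
  case hP => rw [pr_P]; exact hp1
  case hU =>
    rw [pr_U, pr_P]
    exact lt_of_lt_of_le (Nat.lt_succ_self _) ((Nat.le_add_right _ _).trans hp2)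
  case hK =>
    rw [pr_b, pr_tm, pr_P, ← pow_mul]
    exact (Nat.le_add_left _ _).trans hp2
  case hτ => rw [pr_P, pr_τ]
  case hV =>
    rw [pr_f, pr_U, pr_P, pr_Q, pr_V]
    unfold vv
    omega
  case hLq => rw [pr_V, pr_Lq]

/-! ### Logarithmic space -/

theorem PB_lam {k : ℕ} : LF (fun _ a => lam (a 0) : Fn (k + 1)) :=
  ((LF.proj 0).add (LF.const 2)).log2

theorem nf_lam : NF (fun a : Fin 1 → ℕ => lam (a 0)) := PB_lam

theorem nf_two_pow {g : ℕ → ℕ} {C : ℕ} (hg : NF (fun a : Fin 1 → ℕ => g (a 0)))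
    (h : ∀ n, g n ≤ C * lam n) : NF (fun a : Fin 1 → ℕ => 2 ^ g (a 0)) := by
  refine LF.pow (LF.const 2) hg ⟨C, fun x a => ?_⟩
  refine (two_pow_le (h (a 0))).trans (Nat.pow_le_pow_left ?_ C)
  have := arg_le_mu x a 0
  unfold mu
  simp only [univ_unique, Fin.default_eq_zero, Fin.isValue, sum_singleton]
  omega

section nf

variable (c κ : ℕ)

theorem nf_ph : NF (fun a : Fin 1 → ℕ => ph (a 0)) :=
  (LF.div (LF.log2 nf_lam) (LF.const 2)).succ

theorem nf_bb : NF (fun a : Fin 1 → ℕ => bb κ (a 0)) := (LF.const κ).mul nf_ph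

theorem nf_L : NF (fun a : Fin 1 → ℕ => c * lam (a 0)) := (LF.const c).mul nf_lam

theorem nf_tt : NF (fun a : Fin 1 → ℕ => tt c κ (a 0)) :=
  (((LF.const 2).mul (nf_L c)).div (nf_bb κ)).add (LF.const 8)

theorem nf_qe : NF (fun a : Fin 1 → ℕ => qe c κ (a 0)) :=
  ((((nf_L c).add (LF.const 6)).add (LF.const 1)).add (nf_L c)).add ((nf_bb κ).mul (nf_tt c κ))

theorem nf_N : NF (fun a : Fin 1 → ℕ => 2 ^ (c * lam (a 0))) := nf_two_pow (nf_L c) fun _ => le_rfl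

theorem nf_Q : NF (fun a : Fin 1 → ℕ => 2 ^ qe c κ (a 0)) :=
  nf_two_pow (nf_qe c κ) (qe_le c κ)

theorem nf_uu : NF (fun a : Fin 1 → ℕ => uu c κ (a 0)) :=
  (nf_N c).mul (((LF.const 4).mul ((nf_Q c κ).powConst 2)).add (LF.const 1))

theorem nf_pp : NF (fun a : Fin 1 → ℕ => pp c κ (a 0)) := by
  refine Q.lf_nxp (((nf_uu c κ).add (LF.const 1)).add (nf_two_pow (C := 8 * c + 47 * κ)
    (g := fun n => bb κ n * (4 * (tt c κ n + 3) + 3)) ?_ fun n => ?_))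
  · exact (nf_bb κ).mul (((LF.const 4).mul ((nf_tt c κ).add (LF.const 3))).add (LF.const 3))
  · have h2 := btt_le c κ n
    have h3 := bb_le κ n
    nlinarith

theorem nf_f : NF (fun a : Fin 1 → ℕ => 2 ^ ph (a 0)) :=
  nf_two_pow (C := 1) nf_ph fun n => by rw [one_mul]; exact ph_le n

theorem nf_vv : NF (fun a : Fin 1 → ℕ => vv c κ (a 0)) :=
  (((((nf_f.powConst (2 * κ))).mul (nf_uu c κ)).add (nf_pp c κ)).add
    ((LF.const 4).mul (nf_Q c κ))).add (LF.const 1)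

end nf

theorem goodF (c κ : ℕ) : ∃ e, GoodF κ κ e (pr c κ) := by
  refine ⟨30 * c + 89 * κ + 46 + 40 * (8 * (17 * c + 63 * κ + 20) + 6) +
    (2 * (60 * c + 178 * κ + 95) + 4) + (c + 6) + (3 * c + 8), ?_⟩
  constructor
  case nf => exact nf_f
  case nb => exact nf_bb κ
  case nN => exact nf_N c
  case nL => exact nf_L c
  case ng0 => exact (nf_L c).add (LF.const 6)
  case ntm => exact nf_tt c κ
  case nQ => exact nf_Q c κ
  case nP => exact nf_pp c κ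
  case nτ => exact ((LF.const 2).mul (nf_pp c κ).log2).add (LF.const 2)
  case nV => exact nf_vv c κ
  case nLq => exact ((LF.const 2).mul (nf_vv c κ).log2).add (LF.const 3)
  case nB => exact nf_two_pow (nf_bb κ) (bb_le κ)
  case hV =>
    intro n
    rw [pr_V]
    refine (vv_le c κ n).trans (two_pow_le (Nat.mul_le_mul_right _ ?_))
    omega
  case hR =>
    intro n
    rw [pr_P, pr_τ]
    have h0 := lam_pos n
    have h1 := (pp_spec c κ n).2.2
    have h2 := logp_le c κ n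
    set D := 17 * c + 63 * κ + 20 with hD
    have h3 : pp c κ n ^ 2 * 8 ^ (2 * Nat.log 2 (pp c κ n) + 2) ≤ 2 ^ ((8 * D + 6) * lam n) := by
      have e8 : 8 ^ (2 * Nat.log 2 (pp c κ n) + 2) =
          2 ^ (3 * (2 * Nat.log 2 (pp c κ n) + 2)) := by
        rw [pow_mul 2 3]
        norm_num
      calc _ ≤ (2 ^ (D * lam n)) ^ 2 * 2 ^ (3 * (2 * Nat.log 2 (pp c κ n) + 2)) :=
            Nat.mul_le_mul (Nat.pow_le_pow_left h1 2) e8.le
        _ = 2 ^ (D * lam n * 2 + 3 * (2 * Nat.log 2 (pp c κ n) + 2)) := by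
            rw [← pow_mul, ← pow_add]
        _ ≤ _ := Nat.pow_le_pow_right (by norm_num) (by nlinarith)
    calc _ ≤ (2 ^ ((8 * D + 6) * lam n)) ^ 40 := Nat.pow_le_pow_left h3 _
      _ = 2 ^ ((8 * D + 6) * lam n * 40) := by rw [← pow_mul]
      _ ≤ _ := two_pow_le (by nlinarith)
  case hq =>
    intro n
    rw [pr_Lq, pr_f]
    have h0 := lam_pos n
    have h1 := lq_le c κ n
    set A := 60 * c + 178 * κ + 95 with hA
    have h2 : A ≤ 2 ^ A := Nat.lt_two_pow_self.le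
    have h3 := f_le n
    calc _ ≤ (A * lam n) ^ (2 ^ ph n) := Nat.pow_le_pow_left h1 _
      _ = A ^ (2 ^ ph n) * lam n ^ (2 ^ ph n) := mul_pow _ _ _
      _ ≤ (2 ^ A) ^ (2 * lam n) * 2 ^ (4 * lam n) := by
          refine Nat.mul_le_mul ?_ (lam_pow n)
          exact (Nat.pow_le_pow_left h2 _).trans (Nat.pow_le_pow_right (by positivity) h3)
      _ = 2 ^ (A * (2 * lam n) + 4 * lam n) := by rw [← pow_mul, ← pow_add]
      _ ≤ _ := two_pow_le (by nlinarith)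
  case hG =>
    intro n
    rw [pr_g0]
    have h0 := lam_pos n
    exact two_pow_le (by nlinarith)
  case hL =>
    intro n
    rw [pr_L, pr_tm]
    have h0 := lam_pos n
    have h1 := tt_le c κ n
    nlinarith

/-- **Good parameters exist.** -/
theorem modG : ModG := by
  intro c _
  obtain ⟨e, he⟩ := goodF c (c + 40)
  refine ⟨c + 40, c + 40, e, pr c (c + 40), by omega, by omega, fun n => good (by omega) ?_ ?_ n,
    he⟩
  · rw [show c + 40 - 4 = c + 36 by omega]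
    exact c_bound1 c
  · rw [show c + 40 - 4 = c + 36 by omega]
    exact c_bound2 c

end Vale.Agent.P313.AC.H95
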